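import Vale.Agent.P031.Main
import Vale.Agent.P031.Band
import Vale.Agent.P031.CellMass
import Vale.Agent.P031.CollideLower
import Vale.Agent.P031.MajorantFinal
import Vale.Agent.P031.Normal
import Vale.Agent.P031.Safe
import Vale.Agent.P031.Stability
import Vale.Agent.P031.Upper

/-!
The ratio of totient value counts at `c * x` and at `x` tends to `c`.
-/

open Filter Topology Vale.Agent.P031

namespace Vale.Agent.Results.P031.ErdosHallRatio

theorem result (c : ℝ) (hc : 1 < c) :
    Tendsto (fun x : ℝ => (totCount (c * x) : ℝ) / totCount x) atTop (𝓝 c) :=
  ratio_tendsto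
    (upperPin cellMassPin abnormalMassPin abnormalCountPin halfDevPin safeMassPin)
    (lowerPin_of cellMassPin abnormalCountPin outerMajorantPin safeMassPin safeSmallPin)
    (bandPin_of cellMassPin abnormalMassPin stabilityPin
      (distinctPin_of cellMassPin innerMajorantPin) safeMassPin)
    safeSmallPin safeMassPin hc

end Vale.Agent.Results.P031.ErdosHallRatio
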